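import Mathlib

/-!
# P129 (helper53): the separable quotient problem reduces to Banach spaces with a countable
separating family of functionals

Every infinite-dimensional Banach space `X` (real or complex) has a closed subspace `N` such
that `X ⧸ N` is infinite-dimensional and carries a sequence of bounded linear functionals that
separates its points: `N` is the joint kernel of countably many norming functionals of a
sequence that is dense in the span of a linearly independent sequence.  A normed space with
such a sequence of functionals has cardinality at most continuum.  Hence the separable quotient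
problem has a positive answer if and only if it has one for Banach spaces with a countable
separating family of functionals.
-/

namespace Vale.Agent.Lib.P129.H53

open Cardinal Set

universe u

/-- `X` has a separable infinite-dimensional quotient, in the equivalent form given in the
problem file: there are a separable infinite-dimensional Banach space `Z` and a bounded linear
map of `X` onto `Z`. -/
def HasSepQuot (𝕜 : Type) [RCLike 𝕜] (X : Type u) [NormedAddCommGroup X] [NormedSpace 𝕜 X] :
    Prop :=
  ∃ (Z : Type u) (_ : NormedAddCommGroup Z) (_ : NormedSpace 𝕜 Z) (_ : CompleteSpace Z),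
    TopologicalSpace.SeparableSpace Z ∧ ¬ FiniteDimensional 𝕜 Z ∧
      ∃ T : X →L[𝕜] Z, Function.Surjective T

/-- `X` carries a sequence of continuous linear functionals that separates its points: the
only point on which all of them vanish is `0`. -/
def CountablySeparated (𝕜 : Type) [RCLike 𝕜] (X : Type u) [AddCommGroup X] [Module 𝕜 X]
    [TopologicalSpace X] : Prop :=
  ∃ f : ℕ → (X →L[𝕜] 𝕜), ∀ x : X, (∀ n, f n x = 0) → x = 0

/-- every infinite-dimensional normed space has a closed subspace `N` with `X ⧸ N`
infinite-dimensional and with a sequence of bounded functionals separating the points of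
`X ⧸ N` -/
theorem exists_small_quotient (𝕜 : Type) [RCLike 𝕜]
    (X : Type u) [NormedAddCommGroup X] [NormedSpace 𝕜 X] (hX : ¬ FiniteDimensional 𝕜 X) :
    ∃ N : Submodule 𝕜 X, IsClosed (N : Set X) ∧ ¬ FiniteDimensional 𝕜 (X ⧸ N) ∧
      CountablySeparated 𝕜 (X ⧸ N) := by
  classical
  -- a linearly independent sequence
  have hinf : Infinite (Module.Basis.ofVectorSpaceIndex 𝕜 X) := by
    by_contra h
    rw [not_infinite_iff_finite] at h
    exact hX (Module.Finite.of_basis (Module.Basis.ofVectorSpace 𝕜 X))
  let ι := Infinite.natEmbedding (Module.Basis.ofVectorSpaceIndex 𝕜 X)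
  let e : ℕ → X := fun n => Module.Basis.ofVectorSpace 𝕜 X (ι n)
  have he : LinearIndependent 𝕜 e :=
    (Module.Basis.ofVectorSpace 𝕜 X).linearIndependent.comp ι ι.injective
  -- a sequence whose closure contains the span
  have hsep : TopologicalSpace.IsSeparable (Submodule.span 𝕜 (range e) : Set X) :=
    (countable_range e).isSeparable.span
  obtain ⟨c, hc, hWc⟩ := hsep
  have hcne : c.Nonempty := by
    have h0 : (0 : X) ∈ closure c := hWc (Submodule.zero_mem _)
    exact closure_nonempty_iff.1 ⟨0, h0⟩
  obtain ⟨d, rfl⟩ := hc.exists_eq_range hcne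
  -- norming functionals
  choose g hg1 hg2 using fun n => exists_dual_vector'' 𝕜 (d n)
  let N : Submodule 𝕜 X := ⨅ n, LinearMap.ker (g n : X →ₗ[𝕜] 𝕜)
  have hmemN : ∀ x : X, x ∈ N ↔ ∀ n, g n x = 0 := by
    intro x
    simp [N, Submodule.mem_iInf]
  have hNclosed : IsClosed (N : Set X) := by
    have : (N : Set X) = ⋂ n, {x : X | g n x = 0} := by
      ext x
      simp [hmemN]
    rw [this]
    exact isClosed_iInter fun n => isClosed_eq (g n).continuous continuous_const
  -- the span meets `N` only in zero
  have hdisj : Disjoint (Submodule.span 𝕜 (range e)) N := by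
    rw [Submodule.disjoint_def]
    intro w hwW hwN
    have hgw : ∀ n, g n w = 0 := (hmemN w).1 hwN
    by_contra hw0
    have hpos : 0 < ‖w‖ := norm_pos_iff.2 hw0
    have hwcl : w ∈ closure (range d) := hWc hwW
    obtain ⟨y, ⟨n, rfl⟩, hdist⟩ := Metric.mem_closure_iff.1 hwcl (‖w‖ / 2) (by positivity)
    have h1 : ‖d n‖ ≤ ‖d n - w‖ := by
      have h : g n (d n - w) = ((‖d n‖ : ℝ) : 𝕜) := by
        rw [map_sub, hg2 n, hgw n, sub_zero]
      calc ‖d n‖ = ‖((‖d n‖ : ℝ) : 𝕜)‖ := by simp
        _ = ‖g n (d n - w)‖ := by rw [h]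
        _ ≤ ‖g n‖ * ‖d n - w‖ := (g n).le_opNorm _
        _ ≤ 1 * ‖d n - w‖ := by gcongr; exact hg1 n
        _ = ‖d n - w‖ := one_mul _
    have h2 : ‖w‖ ≤ ‖w - d n‖ + ‖d n‖ := by
      calc ‖w‖ = ‖(w - d n) + d n‖ := by simp
        _ ≤ ‖w - d n‖ + ‖d n‖ := norm_add_le _ _
    rw [dist_eq_norm] at hdist
    have h3 : ‖d n - w‖ = ‖w - d n‖ := norm_sub_rev _ _
    linarith
  -- the quotient is infinite-dimensional
  have hli : LinearIndependent 𝕜 (N.mkQ ∘ e) := he.map (by rwa [Submodule.ker_mkQ])
  have hnf : ¬ FiniteDimensional 𝕜 (X ⧸ N) := by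
    intro hfd
    have : Finite ℕ := hli.finite_of_isNoetherian
    exact not_finite ℕ
  -- the functionals pass to the quotient and separate its points
  have hle : ∀ n, N ≤ (g n).ker := fun n x hx => by
    rw [LinearMap.mem_ker]
    exact (hmemN x).1 hx n
  refine ⟨N, hNclosed, hnf, fun n => N.liftQL (g n) (hle n), ?_⟩
  intro y hy
  obtain ⟨x, rfl⟩ := Submodule.mkQ_surjective N y
  have hx : x ∈ N := by
    rw [hmemN]
    intro n
    have := hy n
    simpa using this
  simpa using hx

/-- a normed space with a sequence of bounded functionals separating its points has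
cardinality at most continuum -/
theorem card_le_of_separating (𝕜 : Type) [RCLike 𝕜] (h𝕜 : #𝕜 ≤ 𝔠)
    (X : Type u) [NormedAddCommGroup X] [NormedSpace 𝕜 X]
    (hsep : CountablySeparated 𝕜 X) : #X ≤ 𝔠 := by
  obtain ⟨f, hf⟩ := hsep
  have hinj : Function.Injective (fun (x : X) (n : ℕ) => f n x) := by
    intro x y hxy
    have h0 : x - y = 0 := by
      apply hf
      intro n
      have := congrFun hxy n
      simp only at this
      rw [map_sub, this, sub_self]
    exact sub_eq_zero.1 h0
  have hseq : #(ℕ → 𝕜) ≤ 𝔠 := by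
    rw [Cardinal.mk_arrow, Cardinal.lift_uzero, Cardinal.lift_uzero, Cardinal.mk_nat]
    calc #𝕜 ^ ℵ₀ ≤ 𝔠 ^ ℵ₀ := Cardinal.power_le_power_right h𝕜
      _ = 𝔠 := Cardinal.continuum_power_aleph0
  have h1 := Cardinal.lift_mk_le_lift_mk_of_injective hinj
  rw [Cardinal.lift_uzero] at h1
  calc #X ≤ Cardinal.lift.{u} #(ℕ → 𝕜) := h1
    _ ≤ Cardinal.lift.{u} 𝔠 := Cardinal.lift_le.2 hseq
    _ = 𝔠 := Cardinal.lift_continuum

/-- the separable quotient problem is equivalent to its restriction to Banach spaces with a
sequence of bounded functionals separating the points -/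
theorem reduction (𝕜 : Type) [RCLike 𝕜] :
    (∀ (X : Type u) [NormedAddCommGroup X] [NormedSpace 𝕜 X] [CompleteSpace X],
        ¬ FiniteDimensional 𝕜 X → HasSepQuot 𝕜 X) ↔
    (∀ (X : Type u) [NormedAddCommGroup X] [NormedSpace 𝕜 X] [CompleteSpace X],
        ¬ FiniteDimensional 𝕜 X → CountablySeparated 𝕜 X → HasSepQuot 𝕜 X) := by
  constructor
  · intro h X _ _ _ hX _
    exact h X hX
  · intro h X _ _ _ hX
    obtain ⟨N, hNc, hNf, hNsep⟩ := exists_small_quotient 𝕜 X hX
    have : IsClosed (N : Set X) := hNc
    obtain ⟨Z, i1, i2, i3, hsep, hZ, T, hT⟩ := h (X ⧸ N) hNf hNsep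
    exact ⟨Z, i1, i2, i3, hsep, hZ, T.comp N.mkQL, hT.comp (Submodule.mkQ_surjective N)⟩

end Vale.Agent.Lib.P129.H53
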